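import Vale.Agent.P158.Gen.Bent.Geom
import Vale.Agent.P158.Bent

/-!
Slopes on which the shape is strictly subadditive, for unbounded weights: the ends of a site are
moved to unenclosed vertices, between which the passage time is the shielded one.
-/

open MeasureTheory Filter Topology
open scoped ENNReal

namespace Vale.Agent.P158.Gen.Bent

open Vale.Agent.P158
open Vale.Agent.P158.Straight (Shape frame vec)
open Vale.Agent.P158.Bent (pairSite strict_gap r1_vec_le)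

/-- At a site the shape is nearly additive between the two slopes, with error from the shape
theorem and from the moves to unenclosed vertices. -/
theorem near_additive {m κ κ' A' A : ℝ} {G : Measure ℝ} {μ : ℝ × ℝ → ℝ} (hs : Shape G A μ)
    (hA : 0 ≤ A) (hF : ShieldFacts m) {t : Conf} (hgood : GoodG κ (shield m t)) {C : ℝ} {C0 n L : ℕ}
    (hn : 0 < n) (hok : BoxOK m κ' A' (C0 * n) L t) (hLn : L + 1 ≤ n) {c₁ c₂ : ℝ} (hc₁ : 0 < c₁)
    (hc₂ : 0 < c₂) (hC0 : (1 + |C|) * (c₁ + c₂ + 1) < C0) {e : ℝ}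
    (hbad : ∀ x y : V, InBox ((C0 + 1) * n) x → InBox ((C0 + 1) * n) y →
      |T (shield m t) x y - μ (toR y - toR x)| ≤ e) {k : ℤ} (hk : k = 0 ∨ k = 1) {R : ℕ} {r₁ : ℝ}
    {n₁ n₂ : ℕ} (hu1 : (n₁ : ℝ) < c₁ * n + 1) (hu2 : (n₂ : ℝ) < c₂ * n + 1)
    (hQ1 : 8 * (2 * (L : ℤ) + 1) ^ 2 ≤ (n₁ : ℤ)) (hQ2 : 8 * (2 * (L : ℤ) + 1) ^ 2 ≤ (n₂ : ℤ))
    {γ : ℤ → V} {i₀ i₁ i j : ℤ} (h : SiteSeg k R r₁ C n₁ n₂ t γ i₀ i₁ i j) :
    (n₁ : ℝ) * μ (vec k (-((γ i₀).2 : ℝ) / n₁)) + (n₂ : ℝ) * μ (vec k (((γ i₁).2 : ℝ) / n₂)) ≤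
      μ ((n₁ : ℝ) • vec k (-((γ i₀).2 : ℝ) / n₁) + (n₂ : ℝ) • vec k (((γ i₁).2 : ℝ) / n₂)) +
        3 * e + 8 * (A * ((L : ℝ) + 1)) := by
  have hQ : 0 < (2 * (L : ℤ) + 1) ^ 2 := by positivity
  have hn1 : (0 : ℝ) < n₁ := by exact_mod_cast (by omega : (0 : ℤ) < (n₁ : ℤ))
  have hn2 : (0 : ℝ) < n₂ := by exact_mod_cast (by omega : (0 : ℤ) < (n₂ : ℤ))
  have hn' : (0 : ℝ) < n := by exact_mod_cast hn
  set a := γ i₀
  set b := γ i₁
  have p1 := mul_pos hc₁ hn'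
  have p2 := mul_pos hc₂ hn'
  have ha : InBox (C0 * n) a := end_inBox hk hn hc₁ hc₂ hC0 (by linarith) (Or.inr h.lev₀) h.slope₀
  have hb : InBox (C0 * n) b := end_inBox hk hn hc₁ hc₂ hC0 (by linarith) (Or.inl h.lev₁) h.slope₁
  have hlo := h.cross.lo
  have hio : i ≤ i₁ := h.cross.le.trans h.cross.hi.le
  have hleft := steps_ge hk h.seg.adj le_rfl hlo.le hio
  have hright := steps_ge hk h.seg.adj hlo.le hio le_rfl
  rw [h.lev₀, h.cross.first] at hleft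
  rw [h.lev₁, h.cross.first] at hright
  obtain ⟨p, q, hp0, hp1, hpq, hq0, hq1, okp, okq, nearp, nearq⟩ :=
    hF.trim (C0 * n) L t hok.loc γ i₀ i₁ h.seg (inBox_inSq ha) (inBox_inSq hb) (by omega)
  have hpi : p ≤ i := by omega
  have hiq : i ≤ q := by omega
  set a' := γ p
  set b' := γ q
  obtain ⟨na1, na2⟩ := nearp p hp0 le_rfl
  obtain ⟨nb1, nb2⟩ := nearq q le_rfl hq1
  have ha' : InBox ((C0 + 1) * n) a' := inBox_grow hLn ha na1 na2
  have hb' : InBox ((C0 + 1) * n) b' := inBox_grow hLn hb nb1 nb2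
  have hz : InBox ((C0 + 1) * n) (0 : V) := ⟨by simp, by simp⟩
  have hle0 : ∀ e, shield m t e ≤ t e := fun e => hF.le Set.univ t e
  have m1 := T_le_T hgood.nonneg hle0 a' 0
  have m2 := T_le_T hgood.nonneg hle0 0 b'
  have heq : T (shield m t) a' b' = T t a' b' := hF.eq_T Set.univ t hok.nonneg a' b' okp okq
  have hsplit := piece_split hok.nonneg h.seg hp0 hpi hiq hq1
  have e1 : T t a' (γ i) = T t a' 0 := by rw [h.origin]
  have e2 : T t (γ i) b' = T t 0 b' := by rw [h.origin]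
  have t1 := (abs_le.1 (hbad a' 0 ha' hz)).1
  have t2 := (abs_le.1 (hbad 0 b' hz hb')).1
  have t3 := (abs_le.1 (hbad a' b' ha' hb')).2
  have da := mul_le_mul_of_nonneg_left (r1_near na1 na2) hA
  have db := mul_le_mul_of_nonneg_left (r1_near nb1 nb2) hA
  have k1 := (le_abs_self _).trans (hs.lip (toR (0 : V) - toR a) (toR (0 : V) - toR a'))
  rw [show toR (0 : V) - toR a - (toR (0 : V) - toR a') = -(toR a - toR a') by abel, r1_neg] at k1
  have k2 := (le_abs_self _).trans (hs.lip (toR b - toR (0 : V)) (toR b' - toR (0 : V)))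
  rw [show toR b - toR (0 : V) - (toR b' - toR (0 : V)) = toR b - toR b' by abel] at k2
  have k3 := (le_abs_self _).trans (hs.lip (toR b' - toR a') (toR b - toR a))
  rw [show toR b' - toR a' - (toR b - toR a) = (toR a - toR a') + -(toR b - toR b') by abel] at k3
  have h5 := r1_add (toR a - toR a') (-(toR b - toR b'))
  rw [r1_neg] at h5
  have h6 := mul_le_mul_of_nonneg_left h5 hA
  rw [toR_lev_neg hn1 h.lev₀, hs.smul _ _ hn1.le] at k1
  rw [toR_lev hn2 h.lev₁, hs.smul _ _ hn2.le] at k2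
  rw [show toR b - toR a = (toR (0 : V) - toR a) + (toR b - toR (0 : V)) by abel,
    toR_lev_neg hn1 h.lev₀, toR_lev hn2 h.lev₁] at k3
  linarith

/-- A vector with slightly larger coefficients has only slightly larger norm. -/
theorem round_down {G : Measure ℝ} {A : ℝ} {μ : ℝ × ℝ → ℝ} (hs : Shape G A μ) {B n c₁ c₂ : ℝ}
    {n₁ n₂ : ℝ} (hn : 0 ≤ n) (h1 : c₁ * n ≤ n₁) (h2 : c₂ * n ≤ n₂) (h1' : n₁ ≤ c₁ * n + 1)
    (h2' : n₂ ≤ c₂ * n + 1) {u v : ℝ × ℝ} (hu0 : 0 ≤ μ u) (hv0 : 0 ≤ μ v) (hu : μ u ≤ B)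
    (hv : μ v ≤ B) : μ (n₁ • u + n₂ • v) ≤ n * μ (c₁ • u + c₂ • v) + 2 * B := by
  rw [show n₁ • u + n₂ • v = n • (c₁ • u + c₂ • v) +
    ((n₁ - c₁ * n) • u + (n₂ - c₂ * n) • v) by module]
  refine (hs.add_le _ _).trans ?_
  rw [hs.smul _ _ hn]
  refine add_le_add le_rfl ((hs.add_le _ _).trans ?_)
  rw [hs.smul _ _ (sub_nonneg.2 h1), hs.smul _ _ (sub_nonneg.2 h2)]
  have u1 : (n₁ - c₁ * n) * μ u ≤ B :=
    le_trans (mul_le_of_le_one_left hu0 (by linarith)) hu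
  have u2 : (n₂ - c₂ * n) * μ v ≤ B :=
    le_trans (mul_le_of_le_one_left hv0 (by linarith)) hv
  linarith

/-- Slope events at a strict pair are rare. -/
theorem strict_tendsto_zero {m : ℝ} {G : Measure ℝ} {κ AY κ' A' κ'' A : ℝ} (hG : LawGen G)
    (hF : ShieldFacts m) (hL : ShieldLaw m G κ AY) (hB : BoxProp m G κ' A')
    (hS : ShapeG m G κ'' A)
    {k : ℤ} (hk : k = 0 ∨ k = 1) (R : ℕ) (r₁ C : ℝ) {v1 v2 c₁ c₂ : ℝ} (hv : v1 < v2)
    (hc₁ : 0 < c₁) (hc₂ : 0 < c₂)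
    (hne : muG m G (vec k v1 + vec k v2) ≠ muG m G (vec k v1) + muG m G (vec k v2)) :
    Tendsto (fun n : ℕ => law G (pairSite k R r₁ C v1 v2 ⌈c₁ * n⌉₊ ⌈c₂ * n⌉₊)) atTop (𝓝 0) := by
  have := hG.prob
  have : IsProbabilityMeasure (law G) := by unfold law; infer_instance
  have hs : Shape G A (muG m G) := hS.shape
  obtain ⟨η, hη, hgap⟩ := strict_gap hs hv hc₁ hc₂ hne C
  have hA := hS.A_pos
  set B : ℝ := A * (1 + 2 * |C|) with hBdef
  obtain ⟨C0, hC0⟩ := exists_nat_gt ((1 + |C|) * (c₁ + c₂ + 1))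
  have hbox := hS.box (C0 + 1) (η / 8) (by linarith)
  have hsum := hbox.add (hB.2.2 C0)
  rw [add_zero] at hsum
  refine tendsto_of_tendsto_of_tendsto_of_le_of_le' tendsto_const_nhds hsum
    (Eventually.of_forall fun n => zero_le) ?_
  filter_upwards [(tendsto_const_div_atTop_nhds_zero_nat (2 * B)).eventually_le_const
      (show (0 : ℝ) < η / 8 by linarith), eventually_gt_atTop 0,
      eventually_Lc_small (show 0 < η / (64 * (A + 1)) by positivity),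
      eventually_Lc_small (show 0 < c₁ / 8 by linarith),
      eventually_Lc_small (show 0 < c₂ / 8 by linarith),
      eventually_Lc_small (one_pos : (0 : ℝ) < 1)] with n hB' hn0 hLη hL1 hL2 hL3
  have hn' : (0 : ℝ) < n := by exact_mod_cast hn0
  rw [div_le_iff₀ hn'] at hB'
  refine le_trans (measure_mono (t := ({t : Conf | ∃ x y : V, InBox ((C0 + 1) * n) x ∧
      InBox ((C0 + 1) * n) y ∧
      η / 8 * n < |T (shield m t) x y - muG m G (toR y - toR x)|} ∪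
        {t | ¬ BoxOK m κ' A' (C0 * n) (Lc n) t}) ∪ {t | ¬ GoodG κ (shield m t)}) ?_)
    ((measure_union_le _ _).trans ?_)
  swap
  · rw [show law G {t | ¬ GoodG κ (shield m t)} = 0 from ae_iff.1 (hL.good.mono fun t h => h.2),
      add_zero]
    exact measure_union_le _ _
  rintro t ⟨γ, i₀, i₁, i, j, h, h1, h2⟩
  by_contra hnot
  simp only [Set.mem_union, not_or, Set.mem_ofPred_eq, not_not, not_exists, not_and, not_lt]
    at hnot
  obtain ⟨⟨hbad, hok⟩, hgood⟩ := hnot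
  have hu1 : (⌈c₁ * (n : ℝ)⌉₊ : ℝ) < c₁ * n + 1 := Nat.ceil_lt_add_one (by positivity)
  have hu2 : (⌈c₂ * (n : ℝ)⌉₊ : ℝ) < c₂ * n + 1 := Nat.ceil_lt_add_one (by positivity)
  have hl1 : c₁ * n ≤ (⌈c₁ * (n : ℝ)⌉₊ : ℝ) := Nat.le_ceil _
  have hl2 : c₂ * n ≤ (⌈c₂ * (n : ℝ)⌉₊ : ℝ) := Nat.le_ceil _
  have hn1 : (0 : ℝ) < ⌈c₁ * (n : ℝ)⌉₊ := lt_of_lt_of_le (mul_pos hc₁ hn') hl1
  have hn2 : (0 : ℝ) < ⌈c₂ * (n : ℝ)⌉₊ := lt_of_lt_of_le (mul_pos hc₂ hn') hl2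
  have hQ1 : 8 * (2 * (Lc n : ℤ) + 1) ^ 2 ≤ (⌈c₁ * (n : ℝ)⌉₊ : ℤ) := by
    rw [← Int.cast_le (R := ℝ)]; push_cast; linarith
  have hQ2 : 8 * (2 * (Lc n : ℤ) + 1) ^ 2 ≤ (⌈c₂ * (n : ℝ)⌉₊ : ℤ) := by
    rw [← Int.cast_le (R := ℝ)]; push_cast; linarith
  have hLone : (1 : ℝ) ≤ Lc n := by simp [Lc]
  have hLsq : (Lc n : ℝ) + 1 ≤ (2 * (Lc n : ℝ) + 1) ^ 2 := by nlinarith
  have hLn : Lc n + 1 ≤ n := by
    rw [← Nat.cast_le (α := ℝ)]; push_cast; linarith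
  have hkey := near_additive hs hA.le hF hgood hn0 hok hLn hc₁ hc₂ hC0 hbad hk hu1 hu2 hQ1 hQ2 h
  set sa : ℝ := -((γ i₀).2 : ℝ) / ⌈c₁ * (n : ℝ)⌉₊
  set sb : ℝ := ((γ i₁).2 : ℝ) / ⌈c₂ * (n : ℝ)⌉₊
  have hsa : |sa| ≤ C := by
    rw [abs_div, abs_neg, Nat.abs_cast, div_le_iff₀ hn1]; exact h.slope₀
  have hsb : |sb| ≤ C := by
    rw [abs_div, Nat.abs_cast, div_le_iff₀ hn2]; exact h.slope₁
  have hg := hgap sa sb (abs_le.1 hsa).1 (by rw [div_le_iff₀ hn1]; linarith)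
    (by rw [le_div_iff₀ hn2]; exact h2) (abs_le.1 hsb).2
  have hnn : ∀ p, 0 ≤ muG m G p := fun p =>
    le_trans (mul_nonneg hS.κ_pos.le (r1_nonneg _)) (hS.lowerR p)
  have hup : ∀ s, |s| ≤ C → muG m G (vec k s) ≤ B := fun s hsC => (hS.upperR _).trans
    (mul_le_mul_of_nonneg_left (r1_vec_le hk (hsC.trans (le_abs_self C))) hA.le)
  have hr := round_down hs hn'.le hl1 hl2 hu1.le hu2.le (hnn (vec k sa)) (hnn (vec k sb))
    (hup sa hsa) (hup sb hsb)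
  have w1 := mul_le_mul_of_nonneg_right hl1 (hnn (vec k sa))
  have w2 := mul_le_mul_of_nonneg_right hl2 (hnn (vec k sb))
  have w3 := mul_le_mul_of_nonneg_left hg hn'.le
  have w4 : 0 < η * n := mul_pos hη hn'
  have w5 : A * ((Lc n : ℝ) + 1) ≤ η / 64 * n := by
    refine (mul_le_mul_of_nonneg_left (hLsq.trans hLη) hA.le).trans ?_
    have e5 : A / (A + 1) ≤ 1 := by rw [div_le_one (by linarith)]; linarith
    calc A * (η / (64 * (A + 1)) * n) = A / (A + 1) * (η / 64 * n) := by field_simp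
      _ ≤ 1 * (η / 64 * n) := mul_le_mul_of_nonneg_right e5 (by positivity)
      _ = _ := one_mul _
  linarith

end Vale.Agent.P158.Gen.Bent
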