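import Vale.Agent.P158.Gen.Bent.Tools

/-!
Geometry of a site: the ends lie in a box, lie far from the origin along the path, and can be
moved to unenclosed vertices.
-/

namespace Vale.Agent.P158.Gen.Bent

open Vale.Agent.P158
open Vale.Agent.P158.Straight (frame vec)
open Vale.Agent.P158.Bent (seg_walk sum_split dart_near)

/-- A piece of a geodesic segment through an interior vertex splits there. -/
theorem piece_split {t : Conf} (h0 : ∀ e, 0 ≤ t e) {γ : ℤ → V} {i₀ i₁ : ℤ}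
    (h : SegGeo t γ i₀ i₁) {a i b : ℤ} (ha : i₀ ≤ a) (hai : a ≤ i) (hib : i ≤ b) (hb : b ≤ i₁) :
    T t (γ a) (γ i) + T t (γ i) (γ b) ≤ T t (γ a) (γ b) := by
  obtain ⟨u, -, hu, -⟩ := seg_walk (t := t) h.adj ha hai (hib.trans hb)
  obtain ⟨w, -, hw, -⟩ := seg_walk (t := t) h.adj (ha.trans hai) hib hb
  obtain ⟨p, -, hp, -⟩ := seg_walk (t := t) h.adj le_rfl ha (by omega : a ≤ i₁)
  obtain ⟨q, -, hq, -⟩ := seg_walk (t := t) h.adj (by omega : i₀ ≤ b) hb le_rfl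
  have e := h.geo
  rw [sum_split _ ha (by omega : a ≤ i₁), sum_split _ (hai.trans hib) hb, sum_split _ hai hib,
    ← hu, ← hw, ← hp, ← hq] at e
  have := T_le h0 u
  have := T_le h0 w
  have := T_le h0 p
  have := T_le h0 q
  have := T_triangle h0 (γ i₀) (γ a) (γ i₁)
  have := T_triangle h0 (γ a) (γ b) (γ i₁)
  linarith

theorem lev_le_dist {k : ℤ} (hk : k = 0 ∨ k = 1) (p q : V) :
    |lev k q - lev k p| ≤ |q.1 - p.1| + |q.2 - p.2| := by
  rcases hk with rfl | rfl <;> simp only [lev] <;> rw [abs_le] <;>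
    rcases abs_cases (q.1 - p.1) with hx | hx <;> rcases abs_cases (q.2 - p.2) with hy | hy <;>
    omega

/-- Two vertices at level difference `d` are at least `d / 2` steps apart. -/
theorem steps_ge {k : ℤ} (hk : k = 0 ∨ k = 1) {γ : ℤ → V} {i₀ i₁ : ℤ}
    (hadj : ∀ m, i₀ ≤ m → m < i₁ → Adj (γ m) (γ (m + 1))) {p q : ℤ} (hp : i₀ ≤ p) (hpq : p ≤ q)
    (hq : q ≤ i₁) : lev k (γ q) - lev k (γ p) ≤ 2 * (q - p) := by
  obtain ⟨w, hw, -, -⟩ := seg_walk (t := fun _ => 0) hadj hp hpq hq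
  obtain ⟨⟨d1, d2⟩, -⟩ := dart_near w
  have := (le_abs_self _).trans (lev_le_dist hk (γ p) (γ q))
  omega

/-- The end of a site at level `± s` with bounded slope lies in a box. -/
theorem end_inBox {k : ℤ} (hk : k = 0 ∨ k = 1) {C : ℝ} {n C0 : ℕ} (hn : 0 < n) {c₁ c₂ : ℝ}
    (hc₁ : 0 < c₁) (hc₂ : 0 < c₂) (hC0 : (1 + |C|) * (c₁ + c₂ + 1) < C0) {z : V} {s : ℕ}
    (hs : (s : ℝ) < (c₁ + c₂) * n + 1) (hz : lev k z = (s : ℤ) ∨ lev k z = -(s : ℤ))
    (h2 : |(z.2 : ℝ)| ≤ C * s) : InBox (C0 * n) z := by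
  have h1 : |(z.1 : ℝ)| ≤ s + |(z.2 : ℝ)| := by
    have hk1 : |(k : ℝ)| ≤ 1 := by rcases hk with rfl | rfl <;> simp
    have hkz : |(k : ℝ) * z.2| ≤ |(z.2 : ℝ)| := by
      rw [abs_mul]; exact mul_le_of_le_one_left (abs_nonneg _) hk1
    have e : ((lev k z : ℤ) : ℝ) = z.1 + k * z.2 := by simp [lev]
    have hl : |((lev k z : ℤ) : ℝ)| = (s : ℝ) := by rcases hz with h | h <;> rw [h] <;> simp
    rw [e] at hl
    have := abs_sub ((z.1 : ℝ) + k * z.2) ((k : ℝ) * z.2)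
    rw [add_sub_cancel_right] at this
    linarith
  have h0 : (0 : ℝ) ≤ |C| := abs_nonneg C
  have a1 : C * s ≤ |C| * s := mul_le_mul_of_nonneg_right (le_abs_self C) (Nat.cast_nonneg s)
  have a3 : (1 : ℝ) ≤ n := by exact_mod_cast hn
  have a2 : (s : ℝ) ≤ (c₁ + c₂ + 1) * n := by linarith
  have a4 : (1 + |C|) * s ≤ C0 * n := by
    refine (mul_le_mul_of_nonneg_left a2 (by linarith)).trans ?_
    rw [← mul_assoc]
    exact mul_le_mul_of_nonneg_right hC0.le (Nat.cast_nonneg n)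
  refine ⟨?_, ?_⟩ <;> rw [← Int.cast_le (R := ℝ)] <;> push_cast <;>
    linarith [Nat.cast_nonneg (α := ℝ) s]

/-- Moving a vertex by at most `L + 1 ≤ n` stays in the larger box. -/
theorem inBox_grow {C0 n L : ℕ} (hL : L + 1 ≤ n) {z z' : V} (hz : InBox (C0 * n) z)
    (e1 : |z'.1 - z.1| ≤ (L : ℤ) + 1) (e2 : |z'.2 - z.2| ≤ (L : ℤ) + 1) :
    InBox ((C0 + 1) * n) z' := by
  have hL' : (L : ℤ) + 1 ≤ (n : ℤ) := by exact_mod_cast hL
  have a1 := abs_le.1 hz.1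
  have a2 := abs_le.1 hz.2
  rw [abs_le] at e1 e2
  refine ⟨?_, ?_⟩ <;> rw [abs_le] <;> push_cast at a1 a2 ⊢ <;> constructor <;> linarith

theorem inBox_inSq {N : ℕ} {z : V} (hz : InBox N z) : InSq (N : ℤ) z :=
  ⟨(abs_le.1 hz.1).1, (abs_le.1 hz.1).2, (abs_le.1 hz.2).1, (abs_le.1 hz.2).2⟩

theorem r1_near {L : ℕ} {z z' : V} (e1 : |z'.1 - z.1| ≤ (L : ℤ) + 1)
    (e2 : |z'.2 - z.2| ≤ (L : ℤ) + 1) : r1 (toR z - toR z') ≤ 2 * ((L : ℝ) + 1) := by
  have f1 : |((z'.1 - z.1 : ℤ) : ℝ)| ≤ (L : ℝ) + 1 := by exact_mod_cast e1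
  have f2 : |((z'.2 - z.2 : ℤ) : ℝ)| ≤ (L : ℝ) + 1 := by exact_mod_cast e2
  push_cast at f1 f2
  simp only [r1, toR, Prod.fst_sub, Prod.snd_sub]
  rw [abs_sub_comm] at f1 f2
  linarith

/-- The vector from an end of a site to the origin. -/
theorem toR_lev {k : ℤ} {z : V} {s : ℕ} (hs : 0 < (s : ℝ)) (hz : lev k z = (s : ℤ)) :
    toR z - toR (0 : V) = (s : ℝ) • vec k ((z.2 : ℝ) / s) := by
  have e : ((z.1 + k * z.2 : ℤ) : ℝ) = ((s : ℤ) : ℝ) := congrArg (fun x : ℤ => (x : ℝ)) hz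
  push_cast at e
  simp only [toR, vec, frame, Prod.smul_mk, smul_eq_mul, Prod.mk_sub_mk, Prod.fst_zero,
    Prod.snd_zero, Prod.mk.injEq]
  constructor <;> push_cast <;> field_simp <;> linarith

theorem toR_lev_neg {k : ℤ} {z : V} {s : ℕ} (hs : 0 < (s : ℝ)) (hz : lev k z = -(s : ℤ)) :
    toR (0 : V) - toR z = (s : ℝ) • vec k (-(z.2 : ℝ) / s) := by
  have h := toR_lev (k := k) (z := -z) hs (by simp only [lev, Prod.fst_neg, Prod.snd_neg] at *; linarith)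
  rw [toR_neg] at h
  simp only [Prod.snd_neg, Int.cast_neg] at h
  rw [← h]
  simp [toR]

end Vale.Agent.P158.Gen.Bent
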