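import Vale.Agent.P158.Gen.Bent.Tools

/-!
Seeds on a cone on which the shape is linear are rare, for unbounded weights: the averaged count
allows a bad event at every site.
-/

open MeasureTheory Filter Topology
open scoped ENNReal

namespace Vale.Agent.P158.Gen.Bent

open Vale.Agent.P158
open Vale.Agent.P158.Straight (Meets Strip IsOffset site site_lev Shape Scaled frame vec scaled_pt
  close_arith)
open Vale.Agent.P158.Bent (LocalLe Obj Seed law_obj_ge law_obj_translate measurableSet_obj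
  count_bound tendsto_ceil_div tendsto_floor_mul eventually_two_le_ceil shape_continuous)

theorem average_bound {G : Measure ℝ} [IsProbabilityMeasure G] {k : ℤ} (hk : k = 0 ∨ k = 1)
    (hm : Meets k) {n₁ n₂ R D N : ℕ} (hn₁ : 2 ≤ n₁) (hn₂ : 2 ≤ n₂) (hD : 2 * R + 3 ≤ D) {d : V}
    (hd : IsOffset k d) {v1 v2 r₁ r₀ M U L : ℝ} (hr : r₀ < r₁) (hM : 0 ≤ M)
    {a0 b0 : V} (ha0 : lev k a0 = -(n₁ : ℤ)) (hb0 : lev k b0 = n₂)
    (ha1 : ((a0.2 : ℤ) : ℝ) ≤ v1 * (-(n₁ : ℝ))) (hb1 : ((b0.2 : ℤ) : ℝ) ≤ v2 * n₂)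
    (hUL : L ≤ U + M * (3 * R + 1)) {bad : Set Conf} {F : ℕ → Set Conf} {pF : ℝ}
    (hbad : ∀ t ∉ bad, (∀ e, 0 ≤ t e) ∧ L ≤ T t a0 b0)
    (hF : ∀ i ≤ N, ∀ t ∉ bad, t ∉ F i → LocalLe R M (site k D i) t ∧
      TS t (Strip k (-(n₁ : ℤ)) (-1)) a0 (site k D i - d) +
        TS t (Strip k 0 n₂) (site k D i) b0 ≤ U)
    (hpF : ∀ i ≤ N, (law G (F i)).toReal ≤ pF) :
    (r₁ - r₀) * ((N + 1) * ((G (Set.Iic r₀)).toReal *
        (law G {t | Seed k n₁ n₂ R v1 v2 r₁ d t}).toReal))
      ≤ (U + M * (3 * R + 1) - L + (r₁ - r₀)) +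
        (r₁ - r₀) * ((N + 1) * ((law G bad).toReal + pF)) := by
  classical
  have : IsProbabilityMeasure (law G) := by unfold law; infer_instance
  set δ := r₁ - r₀
  have hδ : 0 < δ := sub_pos.2 hr
  set A : ℝ := (U + M * (3 * R + 1) - L + δ) / δ
  have hA : 0 ≤ A := div_nonneg (by linarith) hδ.le
  let O : ℕ → Set Conf := fun i => {t | Obj k n₁ n₂ R v1 v2 δ d (site k D i) t}
  let B := toMeasurable (law G) bad
  let F' : ℕ → Set Conf := fun i => toMeasurable (law G) (F i)
  have hB : MeasurableSet B := measurableSet_toMeasurable _ _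
  have hF' : ∀ i, MeasurableSet (F' i) := fun i => measurableSet_toMeasurable _ _
  have point : ∀ t, ∑ i ∈ Finset.range (N + 1), (O i).indicator (fun _ => (1 : ℝ≥0∞)) t ≤
      (ENNReal.ofReal A + (N + 1 : ℕ) * B.indicator (fun _ => 1) t) +
        ∑ i ∈ Finset.range (N + 1), (F' i).indicator (fun _ => (1 : ℝ≥0∞)) t := by
    intro t
    by_cases htB : t ∈ B
    · rw [Set.indicator_of_mem htB, mul_one]
      refine le_trans ?_ (le_add_right le_add_self)
      refine (Finset.sum_le_card_nsmul _ _ 1 fun i _ =>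
        Set.indicator_le_self' (fun _ _ => zero_le) t).trans ?_
      simp
    have htbad : t ∉ bad := fun h => htB (subset_toMeasurable _ _ h)
    obtain ⟨h0, hL⟩ := hbad t htbad
    set I := (Finset.range (N + 1)).filter fun i => t ∈ O i ∧ t ∉ F' i
    have hle : ∑ i ∈ Finset.range (N + 1), (O i).indicator (fun _ => (1 : ℝ≥0∞)) t ≤
        (I.card : ℝ≥0∞) + ∑ i ∈ Finset.range (N + 1), (F' i).indicator (fun _ => 1) t := by
      have e : (I.card : ℝ≥0∞) =
          ∑ i ∈ Finset.range (N + 1), if t ∈ O i ∧ t ∉ F' i then 1 else 0 := by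
        simp only [I, Finset.sum_boole]
      rw [e, ← Finset.sum_add_distrib]
      refine Finset.sum_le_sum fun i _ => ?_
      by_cases h1 : t ∈ O i <;> by_cases h2 : t ∈ F' i <;> simp [h1, h2]
    refine hle.trans (add_le_add ?_ le_rfl)
    rw [Set.indicator_of_notMem htB, mul_zero, add_zero]
    rcases I.eq_empty_or_nonempty with hI | hI
    · simp [hI]
    have hmem : ∀ i ∈ I, i ≤ N ∧ t ∈ O i ∧ t ∉ F i := fun i hi => by
      rw [Finset.mem_filter, Finset.mem_range] at hi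
      exact ⟨by omega, hi.2.1, fun h => hi.2.2 (subset_toMeasurable _ _ h)⟩
    have h := count_bound (N := N) hk hm hn₁ hn₂ hD hd h0 hM ha0 hb0 ha1 hb1 I
      (fun i hi => ⟨(hmem i hi).1, (hmem i hi).2.1⟩)
      (fun i hi => (hF i (hmem i hi).1 t htbad (hmem i hi).2.2).1)
      (fun i hi => (hF i (hmem i hi).1 t htbad (hmem i hi).2.2).2) hI
    rw [← ENNReal.ofReal_natCast]
    refine ENNReal.ofReal_le_ofReal ?_
    rw [le_div_iff₀ hδ]
    nlinarith
  have hint := lintegral_mono (μ := law G) point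
  rw [lintegral_finsetSum' _ fun i _ =>
      (measurable_const.indicator (measurableSet_obj k n₁ n₂ R v1 v2 δ d _)).aemeasurable,
    lintegral_add_right' _ (Finset.aemeasurable_fun_sum _ fun i _ =>
      (measurable_const.indicator (hF' i)).aemeasurable),
    lintegral_finsetSum' _ fun i _ => (measurable_const.indicator (hF' i)).aemeasurable,
    lintegral_add_left' aemeasurable_const, lintegral_const,
    lintegral_const_mul _ (measurable_const.indicator hB), lintegral_indicator_const hB,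
    one_mul, measure_toMeasurable] at hint
  simp only [lintegral_indicator_const (measurableSet_obj k n₁ n₂ R v1 v2 δ d _),
    lintegral_indicator_const (hF' _), one_mul] at hint
  rw [measure_univ, mul_one] at hint
  have hlow : (N + 1 : ℕ) * (law G {t | Seed k n₁ n₂ R v1 v2 r₁ d t} * G (Set.Iic r₀)) ≤
      ∑ i ∈ Finset.range (N + 1),
        law G {t | Obj k n₁ n₂ R v1 v2 δ d (site k D i) t} := by
    refine le_trans ?_ (Finset.card_nsmul_le_sum _ _ _ fun i _ =>
      (law_obj_ge hd).trans (law_obj_translate _ (site_lev k D i)))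
    simp
  have hfin := ENNReal.toReal_mono (by simp [ENNReal.mul_eq_top, measure_ne_top]) (hlow.trans hint)
  rw [ENNReal.toReal_mul, ENNReal.toReal_mul,
    ENNReal.toReal_add (by simp [ENNReal.mul_eq_top, measure_ne_top])
      (by simp [measure_ne_top]),
    ENNReal.toReal_add ENNReal.ofReal_ne_top (by simp [ENNReal.mul_eq_top, measure_ne_top]),
    ENNReal.toReal_ofReal hA, ENNReal.toReal_mul, ENNReal.toReal_natCast,
    ENNReal.toReal_sum (fun i _ => measure_ne_top _ _)] at hfin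
  have hsum : ∑ i ∈ Finset.range (N + 1), (law G (F' i)).toReal ≤ (N + 1 : ℕ) * pF := by
    refine (Finset.sum_le_card_nsmul _ _ pF fun i hi => ?_).trans (le_of_eq (by simp))
    rw [Finset.mem_range] at hi
    simp only [F', measure_toMeasurable]
    exact hpF i (by omega)
  push_cast at hfin hsum
  have hδA : δ * A = U + M * (3 * R + 1) - L + δ := mul_div_cancel₀ _ hδ.ne'
  have h1 := mul_le_mul_of_nonneg_left hfin hδ.le
  have h2 := mul_le_mul_of_nonneg_left hsum hδ.le
  rw [mul_add, mul_add, hδA] at h1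
  linarith

theorem seed_tendsto_zero {G : Measure ℝ} (hG : LawGen G) {A : ℝ} {μ : ℝ × ℝ → ℝ}
    (hs : Shape G A μ) {k : ℤ} (hk : k = 0 ∨ k = 1) (hm : Meets k) {d : V} (hd : IsOffset k d)
    {v1 v2 : ℝ} (hv : v1 < v2) (hlin : μ (vec k v1 + vec k v2) = μ (vec k v1) + μ (vec k v2))
    (R : ℕ) {r₁ r₀ : ℝ} (hr : r₀ < r₁) (hr0 : 0 < G (Set.Iic r₀))
    {c₁ c₂ : ℝ} (hc₁ : 0 < c₁) (hc₂ : 0 < c₂) :
    Tendsto (fun n : ℕ => (law G {t | Seed k ⌈c₁ * n⌉₊ ⌈c₂ * n⌉₊ R v1 v2 r₁ d t}).toReal) atTop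
      (𝓝 0) := by
  classical
  have := hG.prob
  have : IsProbabilityMeasure (law G) := by unfold law; infer_instance
  set c := (G (Set.Iic r₀)).toReal
  have hc : 0 < c := ENNReal.toReal_pos hr0.ne' (measure_ne_top _ _)
  set δ := r₁ - r₀
  have hδ : 0 < δ := sub_pos.2 hr
  set ω := v2 - v1
  have hω : 0 < ω := sub_pos.2 hv
  set θ := ω * min c₁ c₂
  have hθ : 0 < θ := mul_pos hω (lt_min hc₁ hc₂)
  set D := 2 * R + 3
  refine tendsto_order.2 ⟨fun a ha => Eventually.of_forall fun n => ha.trans_le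
    ENNReal.toReal_nonneg, fun ε' hε' => ?_⟩
  set η := ε' * θ * δ * c / (4 * D)
  have hη : 0 < η := by positivity
  set ε := η / 4
  have hε : 0 < ε := by positivity
  set q := c * ε' / 24
  have hq : 0 < q := by positivity
  obtain ⟨M, hM, hloc⟩ := exists_localLe (G := G) R hq
  -- the references
  set a0 : ℕ → V := fun n => pt k (-(⌈c₁ * n⌉₊ : ℤ)) ⌊(-v1) * (⌈c₁ * n⌉₊ : ℝ)⌋
  set b0 : ℕ → V := fun n => pt k ⌈c₂ * n⌉₊ ⌊v2 * (⌈c₂ * n⌉₊ : ℝ)⌋
  set p₁ : ℝ × ℝ := frame k (-c₁) (-v1 * c₁)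
  set p₂ : ℝ × ℝ := frame k c₂ (v2 * c₂)
  have cn : Tendsto (fun n : ℕ => ((-(⌈c₁ * n⌉₊ : ℤ) : ℤ) : ℝ) / n) atTop (𝓝 (-c₁)) := by
    simpa [neg_div] using (tendsto_ceil_div hc₁.le).neg
  have cp : Tendsto (fun n : ℕ => (((⌈c₂ * n⌉₊ : ℕ) : ℤ) : ℝ) / n) atTop (𝓝 c₂) := by
    simpa using tendsto_ceil_div hc₂.le
  have sa : Scaled a0 p₁ := scaled_pt k cn (tendsto_floor_mul (tendsto_ceil_div hc₁.le) _)
  have sb : Scaled b0 p₂ := scaled_pt k cp (tendsto_floor_mul (tendsto_ceil_div hc₂.le) _)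
  have c0 : Tendsto (fun n : ℕ => (((0 : ℤ)) : ℝ) / n) atTop (𝓝 0) := by simp
  have levpt : ∀ c s : ℤ, lev k (pt k c s) = c := fun c s => by simp [lev, pt]
  have hlev : ∀ a b : ℝ, (frame k a b).1 + k * (frame k a b).2 = a := fun a b => by
    simp [frame]
  have hμc := shape_continuous hs
  have hfc : Continuous fun g : ℝ => frame k 0 g := by simp only [frame]; fun_prop
  -- linearity
  set μ1 := μ (vec k v1)
  set μ2 := μ (vec k v2)
  have lin : ∀ w ∈ Set.Icc v1 v2, μ (vec k w) = ((v2 - w) * μ1 + (w - v1) * μ2) / ω := by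
    intro w hw
    have e : vec k w = ((v2 - w) / ω) • vec k v1 + ((w - v1) / ω) • vec k v2 := by
      have h1 : (v2 - w) / ω + (w - v1) / ω = 1 := by
        rw [← add_div, div_eq_one_iff_eq hω.ne']; ring
      have h2 : (v2 - w) / ω * v1 + (w - v1) / ω * v2 = w := by
        rw [div_mul_eq_mul_div, div_mul_eq_mul_div, ← add_div, div_eq_iff hω.ne']; ring
      simp only [vec, frame, Prod.smul_mk, Prod.mk_add_mk, smul_eq_mul, Prod.mk.injEq]
      exact ⟨by linear_combination (k : ℝ) * h2 - h1, h2.symm⟩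
    rw [e, hs.additive hlin (div_nonneg (by linarith [hw.2]) hω.le)
      (div_nonneg (by linarith [hw.1]) hω.le)]
    ring
  have mL : ∀ x, 0 ≤ x → x ≤ θ →
      μ (frame k 0 x - p₁) + μ (p₂ - frame k 0 x) = c₁ * μ1 + c₂ * μ2 := by
    intro x h1 h2
    have h3 : x / c₁ ≤ ω := by
      rw [div_le_iff₀ hc₁]
      exact h2.trans (mul_le_mul_of_nonneg_left (min_le_left _ _) hω.le)
    have h4 : x / c₂ ≤ ω := by
      rw [div_le_iff₀ hc₂]
      exact h2.trans (mul_le_mul_of_nonneg_left (min_le_right _ _) hω.le)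
    have h5 : 0 ≤ x / c₁ := div_nonneg h1 hc₁.le
    have h6 : 0 ≤ x / c₂ := div_nonneg h1 hc₂.le
    rw [show frame k 0 x - p₁ = c₁ • vec k (v1 + x / c₁) by
        simp [p₁, vec, frame]; constructor <;> field_simp <;> ring,
      show p₂ - frame k 0 x = c₂ • vec k (v2 - x / c₂) by
        simp [p₂, vec, frame]; constructor <;> field_simp <;> ring,
      hs.smul _ _ hc₁.le, hs.smul _ _ hc₂.le,
      lin _ ⟨by linarith, by linarith⟩, lin _ ⟨by linarith, by linarith⟩]
    field_simp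
    ring
  have mab : μ (p₂ - p₁) = c₁ * μ1 + c₂ * μ2 := by
    rw [← hs.additive hlin hc₁.le hc₂.le]; congr 1
    simp [p₁, p₂, vec, frame]; constructor <;> ring
  -- the bad events of one height
  set badL : ℕ → ℤ → Set Conf := fun n x =>
    {t | n * (μ (frame k 0 ((x : ℝ) / n) - p₁) + ε) <
      TS t (Strip k (lev k (a0 n)) (lev k (pt k 0 x - d))) (a0 n) (pt k 0 x - d)}
  set badR : ℕ → ℤ → Set Conf := fun n x =>
    {t | n * (μ (p₂ - frame k 0 ((x : ℝ) / n)) + ε) <
      TS t (Strip k (lev k (pt k 0 x)) (lev k (b0 n))) (pt k 0 x) (b0 n)}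
  have uL := eventually_le_of_scaled (f := fun n x => (law G (badL n x)).toReal) hθ.le (fun g _ x hx => by
    have sx : Scaled (fun n => pt k 0 (x n) - d) (frame k 0 g) := by
      simpa [sub_eq_add_neg] using (scaled_pt k c0 hx).add_const (-d)
    have ht := hs.strip k hk _ _ _ _ sa sx (by simp only [p₁]; rw [hlev, hlev]; linarith) (ε / 2)
      (half_pos hε)
    refine tendsto_of_tendsto_of_tendsto_of_le_of_le' tendsto_const_nhds ht
      (Eventually.of_forall fun n => ENNReal.toReal_nonneg) ?_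
    have hcv := ((hμc.comp (hfc.sub continuous_const (g := fun _ => p₁))).tendsto g).comp hx
    filter_upwards [hcv.eventually_const_le (sub_lt_self (μ (frame k 0 g - p₁)) (half_pos hε))]
      with n hn
    refine measureReal_mono (μ := law G) fun t ht => ?_
    simp only [badL, badR, Set.mem_ofPred_eq] at ht ⊢
    refine lt_of_le_of_lt ?_ ht
    simp only [Function.comp_apply, Pi.sub_apply] at hn
    refine mul_le_mul_of_nonneg_left ?_ (Nat.cast_nonneg n)
    linarith) hq
  have uR := eventually_le_of_scaled (f := fun n x => (law G (badR n x)).toReal) hθ.le (fun g _ x hx => by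
    have sx : Scaled (fun n => pt k 0 (x n)) (frame k 0 g) := scaled_pt k c0 hx
    have ht := hs.strip k hk _ _ _ _ sx sb (by simp only [p₂]; rw [hlev, hlev]; linarith) (ε / 2)
      (half_pos hε)
    refine tendsto_of_tendsto_of_tendsto_of_le_of_le' tendsto_const_nhds ht
      (Eventually.of_forall fun n => ENNReal.toReal_nonneg) ?_
    have hcv := ((hμc.comp ((continuous_const (y := p₂)).sub hfc)).tendsto g).comp hx
    filter_upwards [hcv.eventually_const_le (sub_lt_self (μ (p₂ - frame k 0 g)) (half_pos hε))]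
      with n hn
    refine measureReal_mono (μ := law G) fun t ht => ?_
    simp only [badL, badR, Set.mem_ofPred_eq] at ht ⊢
    refine lt_of_le_of_lt ?_ ht
    simp only [Function.comp_apply, Pi.sub_apply] at hn
    refine mul_le_mul_of_nonneg_left ?_ (Nat.cast_nonneg n)
    linarith) hq
  set badT : ℕ → Set Conf := fun n => {t | T t (a0 n) (b0 n) < n * (μ (p₂ - p₁) - ε)}
  have tT : Tendsto (fun n => (law G (badT n)).toReal) atTop (𝓝 0) := hs.lower _ _ _ _ sa sb ε hε
  set const : ℝ := M * (3 * R + 1) + δ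
  have hconst : 0 ≤ const := by positivity
  filter_upwards [eventually_gt_atTop 0, eventually_two_le_ceil hc₁, eventually_two_le_ceil hc₂,
    (tendsto_const_div_atTop_nhds_zero_nat const).eventually (eventually_lt_nhds hη),
    tT.eventually (eventually_le_nhds hq), uL, uR] with n hn hm₁ hm₂ hn1 hn2 hnL hnR
  have hn0 : (0 : ℝ) < n := by exact_mod_cast hn
  set n₁ := ⌈c₁ * (n : ℝ)⌉₊ with hn₁
  set n₂ := ⌈c₂ * (n : ℝ)⌉₊ with hn₂
  set N := ⌊θ * n / D⌋₊
  set bad : Set Conf := {t | ¬ ∀ e, 0 ≤ t e} ∪ badT n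
  have hbadP : (law G bad).toReal ≤ q := by
    refine (measureReal_union_le (μ := law G) _ _).trans ?_
    rw [show (law G).real {t : Conf | ¬ ∀ e, 0 ≤ t e} = 0 by
      rw [measureReal_def, ae_iff.1 (ae_nonneg hG), ENNReal.toReal_zero], zero_add]
    exact hn2
  set U : ℝ := n * (c₁ * μ1 + c₂ * μ2 + 2 * ε)
  set L : ℝ := n * (c₁ * μ1 + c₂ * μ2 - ε)
  have hUL : L ≤ U + M * (3 * R + 1) := by
    have h2 : (0 : ℝ) ≤ M * (3 * R + 1) := by positivity
    simp only [U, L]; nlinarith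
  have hiN : ∀ i, i ≤ N → (((i * D : ℕ) : ℤ) : ℝ) ≤ θ * n := by
    intro i hi
    have h1 : ((i : ℕ) : ℝ) ≤ θ * n / D :=
      le_trans (by exact_mod_cast hi) (Nat.floor_le (by positivity))
    rw [le_div_iff₀ (by positivity)] at h1
    push_cast; linarith
  set F : ℕ → Set Conf := fun i => {t | ¬ LocalLe R M (site k D i) t} ∪
    (badL n ((i * D : ℕ) : ℤ) ∪ badR n ((i * D : ℕ) : ℤ))
  have hpF : ∀ i ≤ N, (law G (F i)).toReal ≤ 3 * q := fun i hi => by
    refine (measureReal_union_le (μ := law G) _ _).trans ?_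
    have h1 := measureReal_union_le (μ := law G) (badL n ((i * D : ℕ) : ℤ))
      (badR n ((i * D : ℕ) : ℤ))
    have h2 := hnL _ (Int.natCast_nonneg _) (hiN i hi)
    have h3 := hnR _ (Int.natCast_nonneg _) (hiN i hi)
    have h4 := hloc (site k D i)
    simp only [measureReal_def] at h1 ⊢
    linarith
  have hF : ∀ i ≤ N, ∀ t ∉ bad, t ∉ F i → LocalLe R M (site k D i) t ∧
      TS t (Strip k (-(n₁ : ℤ)) (-1)) (a0 n) (site k D i - d) +
        TS t (Strip k 0 n₂) (site k D i) (b0 n) ≤ U := by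
    intro i hi t _ ht
    simp only [F, badL, badR, Set.mem_union, Set.mem_ofPred_eq, not_or, not_not, not_lt] at ht
    obtain ⟨h1, h2, h3⟩ := ht
    refine ⟨h1, ?_⟩
    rw [show lev k (pt k 0 ((i * D : ℕ) : ℤ) - d) = -1 by rw [hd.lev_sub, levpt]; ring,
      show lev k (a0 n) = -(n₁ : ℤ) from levpt _ _] at h2
    rw [levpt, show lev k (b0 n) = n₂ from levpt _ _] at h3
    have h4 := mL ((((i * D : ℕ) : ℤ) : ℝ) / n) (by positivity)
      (by rw [div_le_iff₀ hn0]; exact hiN i hi)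
    have h5 := add_le_add h2 h3
    refine le_trans h5 (le_of_eq ?_)
    simp only [U]
    rw [← h4]; ring
  have main := average_bound (G := G) (v1 := v1) (v2 := v2) (M := M) (r₁ := r₁) (r₀ := r₀) hk hm
    (N := N) (R := R) (D := D) (n₁ := n₁) (n₂ := n₂) hm₁ hm₂
    le_rfl hd hr hM (a0 := a0 n) (b0 := b0 n) (levpt _ _) (levpt _ _)
    (by simp only [a0, pt, hn₁]; have := Int.floor_le ((-v1) * ((⌈c₁ * n⌉₊ : ℕ) : ℝ)); linarith)
    (by simp only [b0, pt, hn₂]; exact Int.floor_le _) hUL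
    (bad := bad) (F := F) (pF := 3 * q)
    (fun t ht => by
      simp only [bad, badT, Set.mem_union, Set.mem_ofPred_eq, not_or, not_not, not_lt, mab] at ht
      exact ⟨ht.1, ht.2⟩) hF hpF
  have hN : θ * n / D < N + 1 := Nat.lt_floor_add_one _
  have hNn : θ * n < (N + 1) * D := (div_lt_iff₀ (by positivity)).1 hN
  refine close_arith (M := 0) (K := 1) (const := const) (pb := (law G bad).toReal + 3 * q) hδ hc hε'
    (D := (D : ℝ)) (n := (n : ℝ)) (by positivity) hn0 one_pos (by positivity) hNn ?_ ?_ ?_ ?_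
  · simpa using hη
  · rwa [div_lt_iff₀ hn0] at hn1
  · simp only [q] at hbadP ⊢; nlinarith
  · refine main.trans (le_of_eq ?_)
    simp only [U, L, const, ε, η]
    ring

end Vale.Agent.P158.Gen.Bent
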