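import Vale.Agent.P158.Gen.Spec
import Vale.Agent.P158.Bent.Strict

/-!
Tools for the bent sites of an unbounded law: nonnegativity, local weights, uniformity over a
family of scaled heights.
-/

open MeasureTheory Filter Topology
open scoped ENNReal

namespace Vale.Agent.P158.Gen.Bent

open Vale.Agent.P158
open Vale.Agent.P158.Bent (LocalLe)

theorem ae_nonneg {G : Measure ℝ} (hG : LawGen G) : ∀ᵐ t ∂law G, ∀ e : Edge, 0 ≤ t e := by
  have := hG.prob
  have h : ∀ᵐ x ∂G, x ∈ Set.Ici (0 : ℝ) := by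
    rw [ae_mem_iff_measure_eq measurableSet_Ici.nullMeasurableSet, hG.supp, measure_univ]
  exact ae_all_iff.2 fun e =>
    (measurePreserving_eval_infinitePi (fun _ : Edge => G) e).quasiMeasurePreserving.ae h

theorem localLe_shift {R : ℕ} {M : ℝ} {y : V} {t : Conf} :
    LocalLe R M y t ↔ LocalLe R M 0 (shift y t) := by
  constructor
  · intro h e he
    refine h (eShift y e) ?_
    simpa [eShift, eFst] using he
  · intro h e he
    have hz : InSq ((4 * R + 4 : ℕ) : ℤ) (eFst ((e.1 - y, e.2) : Edge) - 0) := by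
      simpa [eFst] using he
    have h' := h _ hz
    simpa [shift, eShift] using h'

/-- One bound on the weights near a site holds with high probability at every site. -/
theorem exists_localLe {G : Measure ℝ} [IsProbabilityMeasure G] (R : ℕ) {δ : ℝ} (hδ : 0 < δ) :
    ∃ M : ℝ, 0 ≤ M ∧ ∀ y : V, (law G {t | ¬ LocalLe R M y t}).toReal ≤ δ := by
  have : IsProbabilityMeasure (law G) := by unfold law; infer_instance
  set s : ℕ → Set Conf := fun n => {t | ¬ LocalLe R (n : ℝ) (0 : V) t}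
  have hs : ∀ n, MeasurableSet (s n) := fun n => by
    have e : s n = ⋃ e ∈ {e : Edge | InSq ((4 * R + 4 : ℕ) : ℤ) (eFst e - 0)},
        {t : Conf | (n : ℝ) < t e} := by
      ext t
      simp only [s, LocalLe, Set.mem_ofPred_eq, Set.mem_iUnion, exists_prop, not_forall, not_le]
    rw [e]
    exact MeasurableSet.biUnion (Set.to_countable _) fun e _ =>
      measurableSet_lt measurable_const (measurable_pi_apply e)
  have hanti : Antitone s := fun a b hab t ht h =>
    ht fun e he => (h e he).trans (by exact_mod_cast hab)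
  have hfin : {e : Edge | InSq ((4 * R + 4 : ℕ) : ℤ) (eFst e - 0)}.Finite := by
    refine (((Set.finite_Icc (-((4 * R + 4 : ℕ) : ℤ)) ((4 * R + 4 : ℕ) : ℤ)).prod
      (Set.finite_Icc (-((4 * R + 4 : ℕ) : ℤ)) ((4 * R + 4 : ℕ) : ℤ))).prod
        (Set.finite_univ (α := Bool))).subset ?_
    rintro ⟨⟨a, b⟩, c⟩ he
    simp only [InSq, eFst, Set.mem_ofPred_eq, sub_zero] at he
    simp only [Set.mem_prod, Set.mem_Icc, Set.mem_univ, and_true]
    omega
  have hempty : ⋂ n, s n = ∅ := by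
    ext t
    simp only [Set.mem_iInter, Set.mem_empty_iff_false, iff_false, not_forall]
    obtain ⟨B, hB⟩ := (hfin.image t).bddAbove
    obtain ⟨n, hn⟩ := exists_nat_ge B
    exact ⟨n, fun h => h fun e he => (hB (Set.mem_image_of_mem t he)).trans hn⟩
  have ht := tendsto_measure_iInter_atTop (μ := law G) (fun n => (hs n).nullMeasurableSet) hanti
    ⟨0, measure_ne_top _ _⟩
  rw [hempty, measure_empty] at ht
  have ht' : Tendsto (fun n => (law G (s n)).toReal) atTop (𝓝 0) := by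
    simpa [Function.comp_def] using (ENNReal.tendsto_toReal ENNReal.zero_ne_top).comp ht
  obtain ⟨n, hn⟩ := (ht'.eventually_le_const hδ).exists
  refine ⟨n, Nat.cast_nonneg n, fun y => le_trans (le_of_eq ?_) hn⟩
  have e : {t | ¬ LocalLe R (n : ℝ) y t} = shift y ⁻¹' s n := by
    ext t
    simp [s, localLe_shift (y := y)]
  rw [e, law_shift_preimage]

/-- Convergence along every scaled height in a compact interval is uniform in the height. -/
theorem eventually_le_of_scaled {f : ℕ → ℤ → ℝ} {θ : ℝ} (hθ : 0 ≤ θ)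
    (h : ∀ g ∈ Set.Icc 0 θ, ∀ x : ℕ → ℤ, Tendsto (fun n : ℕ => (x n : ℝ) / n) atTop (𝓝 g) →
      Tendsto (fun n => f n (x n)) atTop (𝓝 0)) {δ : ℝ} (hδ : 0 < δ) :
    ∀ᶠ n : ℕ in atTop, ∀ x : ℤ, 0 ≤ x → (x : ℝ) ≤ θ * n → f n x ≤ δ := by
  by_contra hne
  rw [not_eventually] at hne
  obtain ⟨φ, hφ, hP⟩ := extraction_of_frequently_atTop hne
  simp only [not_forall, not_le] at hP
  choose x hx0 hxθ hxf using hP
  have hmem : ∀ j, (x j : ℝ) / (φ j : ℕ) ∈ Set.Icc 0 θ := by
    intro j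
    refine ⟨div_nonneg (by exact_mod_cast hx0 j) (Nat.cast_nonneg _), ?_⟩
    rcases Nat.eq_zero_or_pos (φ j) with h0 | h0
    · simpa [h0] using hθ
    · rw [div_le_iff₀ (Nat.cast_pos.2 h0)]; exact hxθ j
  obtain ⟨g, hg, ψ, hψ, hlim⟩ := isCompact_Icc.tendsto_subseq hmem
  have hinj : Function.Injective (φ ∘ ψ) := (hφ.comp hψ).injective
  set x' : ℕ → ℤ := Function.extend (φ ∘ ψ) (x ∘ ψ) (fun n : ℕ => ⌊g * n⌋)
  have hx' : Tendsto (fun n : ℕ => (x' n : ℝ) / n) atTop (𝓝 g) := by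
    rw [Metric.tendsto_atTop]
    intro ε hε
    obtain ⟨J, hJ⟩ := Metric.tendsto_atTop.1 hlim ε hε
    obtain ⟨K, hK⟩ := Metric.tendsto_atTop.1 (Straight.tendsto_floor_div g) ε hε
    refine ⟨max (φ (ψ J)) K, fun n hn => ?_⟩
    by_cases hr : ∃ j, (φ ∘ ψ) j = n
    · obtain ⟨j, rfl⟩ := hr
      simp only [x', hinj.extend_apply]
      exact hJ j ((hφ.comp hψ).le_iff_le.1 ((le_max_left _ _).trans hn))
    · simp only [x', Function.extend_apply' _ _ _ hr]
      exact hK n ((le_max_right _ _).trans hn)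
  have h2 := (h g hg x' hx').comp (hφ.comp hψ).tendsto_atTop
  obtain ⟨N, hN⟩ := eventually_atTop.1 (h2.eventually_lt_const hδ)
  have h3 := hN N le_rfl
  simp only [Function.comp_apply] at h3
  rw [show x' (φ (ψ N)) = x (ψ N) from hinj.extend_apply _ _ N] at h3
  exact (hxf (ψ N)).not_gt h3

/-- The passage time decreases with the weights. -/
theorem T_le_T {t t' : Conf} (h0 : ∀ e, 0 ≤ t' e) (h : ∀ e, t' e ≤ t e) (x y : V) :
    T t' x y ≤ T t x y := by
  refine le_T fun p => (T_le h0 p).trans ?_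
  exact List.sum_le_sum fun d _ => h _

/-- The square of the local scale is of smaller order than the scale. -/
theorem eventually_Lc_small {a : ℝ} (ha : 0 < a) :
    ∀ᶠ n : ℕ in atTop, (2 * (Lc n : ℝ) + 1) ^ 2 ≤ a * n := by
  obtain ⟨K, hK⟩ := exists_nat_gt (50 / a)
  have hK0 : (0 : ℝ) < K := lt_trans (by positivity) hK
  obtain ⟨N, hN⟩ := exists_nat_gt (50 * ((K : ℝ) + 1) / a)
  filter_upwards [eventually_ge_atTop N] with n hn
  set r := Nat.sqrt n
  set q := Nat.sqrt r
  have hq : (q : ℝ) * q ≤ r := by exact_mod_cast Nat.sqrt_le r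
  have hr : (r : ℝ) * r ≤ n := by exact_mod_cast Nat.sqrt_le n
  have hL : (Lc n : ℝ) = q + 1 := by simp [Lc, q, r]
  have h1 : (2 * ((q : ℝ) + 1) + 1) ^ 2 ≤ 25 * ((r : ℝ) + 1) := by
    nlinarith [sq_nonneg ((q : ℝ) - 1), Nat.cast_nonneg (α := ℝ) r]
  have h2 : (r : ℝ) ≤ K + n / K := by
    rcases le_or_gt (r : ℝ) K with hc | hc
    · have : (0 : ℝ) ≤ n / K := by positivity
      linarith
    · have h4 : (r : ℝ) ≤ n / K := by
        rw [le_div_iff₀ hK0]
        nlinarith [Nat.cast_nonneg (α := ℝ) r]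
      linarith
  have h3 : (N : ℝ) ≤ n := by exact_mod_cast hn
  rw [div_lt_iff₀ ha] at hN
  rw [div_lt_iff₀ ha] at hK
  have h5 : 25 * ((n : ℝ) / K) ≤ a / 2 * n := by
    rw [mul_div_assoc', div_le_iff₀ hK0]
    nlinarith [Nat.cast_nonneg (α := ℝ) n]
  rw [hL]
  nlinarith

end Vale.Agent.P158.Gen.Bent
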